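import Vale.Agent.P251CZ.Susp
import Vale.Agent.P241CL.St

/-!
# P241: the comparison data on `M` given by `P241L.IsSH`
-/

open CategoryTheory MonoidalCategory Limits
open Functor.LaxMonoidal Functor.OplaxMonoidal

set_option linter.unusedSectionVars false

namespace Vale.Agent.P241CG

open Vale.Agent.P251 Vale.Agent.P251.G Vale.Agent.P251.G.LC Vale.Agent.P251.H
  Vale.Agent.P251.H.StabInput Vale.Agent.P251CM Vale.Agent.P251CZ Vale.Agent.P251CR
  Vale.Agent.P251CE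
open Vale.Agent.P251.St (Space toLC toHom ofHom Pn fcPn fc_prod)
open Vale.Agent.P241L (SM)
open Vale.Agent.P251CX (F o mo mn po pn bo bn)

/-- `GenSH` without cones, for `SM`. -/
structure GenL (M : Type 1) [Category.{0} M] [MonoidalCategory M] [SymmetricCategory M]
    [MonoidalClosed M] [HasZeroMorphisms M] [HasColimitsOfSize.{0, 0} M] [StabInput M]
    (T : SM) where
  /-- the localization functor -/
  L : M ⥤ T.Sp
  loc : L.IsLocalization (WW M)
  /-- the lax symmetric monoidal structure -/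
  mu : ∀ X Y : M, L.obj X ⊗ L.obj Y ⟶ L.obj (X ⊗ Y)
  /-- the comparison of suspension spectra -/
  io : ∀ K : St.Space, T.sus K ⟶ L.obj ((J M).obj (toLC K))
  mu_iso : ∀ X Y : M, Flat (WW M) Y → IsIso (mu X Y)
  mu_nat : ∀ {X Y X' Y' : M} (f : X ⟶ X') (g : Y ⟶ Y'),
    mu X Y ≫ L.map (f ⊗ₘ g) = (L.map f ⊗ₘ L.map g) ≫ mu X' Y'
  mu_assoc : ∀ X Y Z : M, mu X Y ▷ L.obj Z ≫ mu (X ⊗ Y) Z ≫ L.map (α_ X Y Z).hom =
    (α_ _ _ _).hom ≫ L.obj X ◁ mu Y Z ≫ mu X (Y ⊗ Z)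
  mu_comm : ∀ X Y : M, mu X Y ≫ L.map (β_ X Y).hom = (β_ _ _).hom ≫ mu Y X
  mu_unit : ∀ X : M, L.obj X ◁ (T.su ≫ io Pn) ≫ mu X ((J M).obj (toLC Pn)) =
    (ρ_ _).hom ≫ L.map ((ρ_ X).inv ≫ X ◁ ε (J M))
  io_iso : ∀ {K : Space}, St.FC K → IsIso (io K)
  io_nat : ∀ {K K' : Space} (a : St.Map K K'), St.FC K → St.FC K' →
    T.sm a ≫ io K' = io K ≫ L.map ((J M).map (toHom a))
  io_mul : ∀ {K K' : Space}, St.FC K → St.FC K' →
    T.sx K K' ≫ io (K.prod K') = (io K ⊗ₘ io K') ≫ mu _ _ ≫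
      L.map (μ (J M) (toLC K) (toLC K'))

variable {M : Type 1} [Category.{0} M] [MonoidalCategory M] [SymmetricCategory M]
    [MonoidalClosed M] [HasZeroMorphisms M] [HasColimitsOfSize.{0, 0} M] [StabInput M]

section

variable {A : Type 1} [Category.{0} A]

/-- comparison data on `A`, read through `N : A ⥤ M` -/
structure MidL (N : A ⥤ M) (T : SM) where
  /-- the localization functor -/
  L : A ⥤ T.Sp
  loc : L.IsLocalization ((WW M).inverseImage N)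
  /-- the lax symmetric monoidal structure -/
  mu : ∀ {X Y Z : A}, (N.obj X ⊗ N.obj Y ⟶ N.obj Z) → (L.obj X ⊗ L.obj Y ⟶ L.obj Z)
  /-- the comparison of suspension spectra -/
  io : ∀ {K : Space} {X : A}, ((J M).obj (toLC K) ⟶ N.obj X) → (T.sus K ⟶ L.obj X)
  mu_iso : ∀ X Y : A, Flat (WW M) (N.obj Y) →
    ∃ (Z : A) (b : N.obj X ⊗ N.obj Y ⟶ N.obj Z), IsIso b ∧ IsIso (mu b)
  mu_nat : ∀ {X Y Z X' Y' Z' : A} (b : N.obj X ⊗ N.obj Y ⟶ N.obj Z)
    (b' : N.obj X' ⊗ N.obj Y' ⟶ N.obj Z') (f : X ⟶ X') (g : Y ⟶ Y') (h : Z ⟶ Z'),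
    b ≫ N.map h = (N.map f ⊗ₘ N.map g) ≫ b' → mu b ≫ L.map h = (L.map f ⊗ₘ L.map g) ≫ mu b'
  mu_assoc : ∀ {X Y Z P Q W : A} (a : N.obj X ⊗ N.obj Y ⟶ N.obj P)
    (b : N.obj P ⊗ N.obj Z ⟶ N.obj W) (c : N.obj Y ⊗ N.obj Z ⟶ N.obj Q)
    (d : N.obj X ⊗ N.obj Q ⟶ N.obj W), a ▷ N.obj Z ≫ b = (α_ _ _ _).hom ≫ N.obj X ◁ c ≫ d →
    mu a ▷ L.obj Z ≫ mu b = (α_ _ _ _).hom ≫ L.obj X ◁ mu c ≫ mu d
  mu_comm : ∀ {X Y Z : A} (b : N.obj X ⊗ N.obj Y ⟶ N.obj Z) (c : N.obj Y ⊗ N.obj X ⟶ N.obj Z),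
    b = (β_ _ _).hom ≫ c → mu b = (β_ _ _).hom ≫ mu c
  mu_unit : ∀ {X Y Z : A} (b : N.obj X ⊗ N.obj Y ⟶ N.obj Z) (u : (J M).obj (toLC Pn) ⟶ N.obj Y)
    (g : X ⟶ Z), N.obj X ◁ (ε (J M) ≫ u) ≫ b = (ρ_ _).hom ≫ N.map g →
    L.obj X ◁ (T.su ≫ io u) ≫ mu b = (ρ_ _).hom ≫ L.map g
  io_iso : ∀ {K : Space}, St.FC K →
    ∃ (X : A) (u : (J M).obj (toLC K) ⟶ N.obj X), IsIso u ∧ IsIso (io u)
  io_nat : ∀ {K K' : Space} {X X' : A} (u : (J M).obj (toLC K) ⟶ N.obj X)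
    (u' : (J M).obj (toLC K') ⟶ N.obj X') (a : St.Map K K') (f : X ⟶ X'), St.FC K → St.FC K' →
    (J M).map (toHom a) ≫ u' = u ≫ N.map f → T.sm a ≫ io u' = io u ≫ L.map f
  io_mul : ∀ {K K' : Space} {X Y Z : A} (u : (J M).obj (toLC K) ⟶ N.obj X)
    (v : (J M).obj (toLC K') ⟶ N.obj Y) (w : (J M).obj (toLC (K.prod K')) ⟶ N.obj Z)
    (b : N.obj X ⊗ N.obj Y ⟶ N.obj Z), St.FC K → St.FC K' →
    mJ K K' ≫ w = (u ⊗ₘ v) ≫ b → T.sx K K' ≫ io w = (io u ⊗ₘ io v) ≫ mu b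

namespace MidL

variable {N : A ⥤ M} [N.IsEquivalence] {T : SM} (D : MidL N T)

theorem mu_post {X Y Z W : A} (b : N.obj X ⊗ N.obj Y ⟶ N.obj Z) (h : Z ⟶ W) :
    D.mu b ≫ D.L.map h = D.mu (b ≫ N.map h) := by
  have := D.mu_nat b (b ≫ N.map h) (𝟙 X) (𝟙 Y) h (by simp)
  simpa using this

theorem isIso_mu {X Y Z : A} (b : N.obj X ⊗ N.obj Y ⟶ N.obj Z) [IsIso b]
    (h : Flat (WW M) (N.obj Y)) : IsIso (D.mu b) := by
  obtain ⟨Z', c, _, _⟩ := D.mu_iso X Y h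
  have : IsIso (N.map (N.preimage (inv c ≫ b))) := by
    rw [N.map_preimage]
    infer_instance
  have := isIso_of_reflects_iso (N.preimage (inv c ≫ b)) N
  have e := D.mu_post c (N.preimage (inv c ≫ b))
  rw [N.map_preimage, IsIso.hom_inv_id_assoc] at e
  rw [← e]
  infer_instance

theorem io_post {K : Space} (hK : St.FC K) {X Y : A} (u : (J M).obj (toLC K) ⟶ N.obj X)
    (h : X ⟶ Y) : D.io u ≫ D.L.map h = D.io (u ≫ N.map h) := by
  obtain ⟨X', v, _, _⟩ := D.io_iso hK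
  have e : (J M).map (toHom (ofHom (𝟙 (toLC K)))) = 𝟙 _ := (J M).map_id _
  have h1 := D.io_nat v v (ofHom (𝟙 (toLC K))) (𝟙 _) hK hK (by rw [e]; simp)
  rw [D.L.map_id, Category.comp_id] at h1
  have h2 : T.sm (ofHom (𝟙 (toLC K))) = 𝟙 _ := by
    rw [← cancel_mono (D.io v), h1, Category.id_comp]
  rw [← D.io_nat u (u ≫ N.map h) (ofHom (𝟙 (toLC K))) h hK hK (by rw [e]; simp), h2,
    Category.id_comp]

theorem isIso_io {K : Space} (hK : St.FC K) {X : A} (u : (J M).obj (toLC K) ⟶ N.obj X)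
    [IsIso u] : IsIso (D.io u) := by
  obtain ⟨X', v, _, _⟩ := D.io_iso hK
  have : IsIso (N.map (N.preimage (inv v ≫ u))) := by
    rw [N.map_preimage]
    infer_instance
  have := isIso_of_reflects_iso (N.preimage (inv v ≫ u)) N
  have e := D.io_post hK v (N.preimage (inv v ≫ u))
  rw [N.map_preimage, IsIso.hom_inv_id_assoc] at e
  rw [← e]
  infer_instance

theorem isLoc : (N.inv ⋙ D.L).IsLocalization (WW M) := by
  have := D.loc
  refine Functor.IsLocalization.of_equivalence_source D.L ((WW M).inverseImage N) (N.inv ⋙ D.L)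
    (WW M) N.asEquivalence (fun X Y f hf => MorphismProperty.le_isoClosure _ _ hf)
    (fun X Y f hf => Localization.inverts D.L ((WW M).inverseImage N) _ ?_)
    ((Functor.associator _ _ _).symm ≪≫
      Functor.isoWhiskerRight N.asEquivalence.unitIso.symm D.L ≪≫ D.L.leftUnitor)
  exact ((WW M).arrow_mk_iso_iff (Arrow.isoMk (ep N X) (ep N Y) (by
    change (ep N X).hom ≫ f = N.map (N.inv.map f) ≫ (ep N Y).hom
    rw [map_inv_map]
    simp) :
    Arrow.mk (N.map (N.inv.map f)) ≅ Arrow.mk f)).2 hf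

/-- the comparison data on `M` -/
noncomputable def genL : GenL M T where
  L := N.inv ⋙ D.L
  loc := D.isLoc
  mu X Y := D.mu (bb N X Y)
  io K := D.io (ep N _).inv
  mu_iso X Y h := D.isIso_mu _ (Mid.flat_ep h)
  mu_nat f g := D.mu_nat _ _ _ _ _ (by rw [map_inv_map, map_inv_map, map_inv_map]; simp [bb])
  mu_assoc X Y Z := by
    refine Eq.trans (congrArg (_ ≫ ·) (D.mu_post _ _)) (D.mu_assoc _ _ _ _ ?_)
    rw [map_inv_map, bb, bb, bb, bb, ← tensorHom_id, ← id_tensorHom]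
    simp only [Category.assoc, Iso.inv_hom_id_assoc, tensorHom_comp_tensorHom_assoc,
      Iso.inv_hom_id, Category.comp_id, Category.id_comp]
    rw [associator_naturality_assoc]
  mu_comm X Y := (D.mu_post _ _).trans (D.mu_comm _ _ (by rw [map_inv_map]; simp [bb]))
  mu_unit X := D.mu_unit _ _ _ (by
    rw [bb, map_inv_map, tensorHom_def', Category.assoc, ← MonoidalCategory.whiskerLeft_comp_assoc,
      Category.assoc, Iso.inv_hom_id, Category.comp_id, whisker_exchange_assoc,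
      ← rightUnitor_naturality_assoc, Category.assoc, Iso.hom_inv_id_assoc]
    rfl)
  io_iso h := D.isIso_io h _
  io_nat a h h' := D.io_nat _ _ a _ h h' (by rw [map_inv_map]; simp)
  io_mul {K K'} h h' := by
    refine (D.io_mul (ep N _).inv (ep N _).inv _ (bb N _ _ ≫ N.map (N.inv.map (mJ K K'))) h h'
      ?_).trans (congrArg (_ ≫ ·) (D.mu_post _ _).symm)
    rw [map_inv_map]
    simp [bb]

end MidL

end

variable {E : P251C.OSp ⥤ M} [E.IsEquivalence] (B : Br2 E) {T : SM} (I : P241L.IsSH T)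

/-- the localization functor -/
def fL : P251CX.OSp ⥤ T.Sp := ⟨I.L, I.l, I.l_id, I.l_comp⟩

/-- The comparison data. -/
noncomputable def mid : MidL (F ⋙ E) T where
  L := fL I
  loc := by
    have e : (WW M).inverseImage (F ⋙ E) = P251CX.piIso := by
      ext X Y f
      exact ((P251CX.piIso_iff f).trans (B.pi (mo f))).symm
    rw [e]
    exact I.loc
  mu t := I.mu (sb B t)
  io t := I.io (su B t)
  mu_iso X Y h := by
    obtain ⟨Z, b, hb, hi⟩ := I.mu_iso X Y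
    refine ⟨Z, B.tb (bo b), (B.isUniv_iff _).1 ((P251CX.isUniv_iff b).1 hb), ?_⟩
    erw [sb_tb]
    exact hi ((P251CX.isFlat_iff Y).2 ((B.isFlat_iff _).2 h))
  mu_nat b b' f g h H := (I.mu_nat _ _ _ _ _ _ (sb B b) (sb B b') f g h
    ((B.tb_nat (bo (sb B b)) (bo (sb B b')) (mo f) (mo g) (mo h)).2 (by
      erw [tb_sb, tb_sb]
      exact H)))
  mu_assoc a b c d H := by
    have := (I.mu_assoc _ _ _ _ _ _ (sb B a) (sb B b) (sb B c) (sb B d)
      (B.assoc' (bo (sb B a)) (bo (sb B b)) (bo (sb B c)) (bo (sb B d)) (by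
        erw [tb_sb, tb_sb, tb_sb, tb_sb]
        exact H)))
    simp only [tensorHom_id, id_tensorHom] at this
    exact Eq.trans this (Category.assoc _ _ _)
  mu_comm b c H := I.mu_comm _ _ _ (sb B b) (sb B c) (B.comm' (bo (sb B b)) (bo (sb B c)) (by
    erw [tb_sb, tb_sb]
    exact H))
  mu_unit b u g H := by
    have := (I.mu_unit _ _ _ (sb B b) (su B u) g
      ((B.tb_unit (bo (sb B b)) (po (su B u)) (mo g)).2 (by
        erw [tb_sb, tp_su]
        exact H)))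
    simp only [id_tensorHom, braiding_leftUnitor] at this
    exact this
  io_iso {K} h := by
    obtain ⟨X, u, hu, -, hi⟩ := I.io_iso K h
    refine ⟨X, B.tp (po u), (B.isFree_iff _).1 ((P251CX.isFree_iff u).1 hu), ?_⟩
    erw [su_tp]
    exact hi
  io_nat u u' a f h h' H := (I.io_nat _ _ _ _ (su B u) (su B u') a f h h'
    ((B.tp_nat (po (su B u)) (po (su B u')) a (mo f)).2 (by
      erw [tp_su, tp_su]
      exact H)))
  io_mul u v w b h h' H := (I.io_mul _ _ _ _ _ (su B u) (su B v) (su B w) (sb B b) h h'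
    (B.tp_mul' (po (su B u)) (po (su B v)) (po (su B w)) (bo (sb B b)) (by
      erw [tp_su, tp_su, tp_su, tb_sb]
      exact H)))

/-- **The comparison data on the model category.** -/
noncomputable def genL {T : SM} (I : P241L.IsSH T) : GenL (RM P251CV.R) T :=
  (mid (br2 P251CV.R qd) I).genL

end Vale.Agent.P241CG
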