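import Vale.Agent.P241CG.GenL

/-!
# P241: the braided localization functor on flat objects
-/

open CategoryTheory MonoidalCategory Limits
open Functor.LaxMonoidal Functor.OplaxMonoidal

set_option linter.unusedSectionVars false

namespace Vale.Agent.P241CG

open Vale.Agent.P251 Vale.Agent.P251.G Vale.Agent.P251.G.LC Vale.Agent.P251.H
  Vale.Agent.P251.H.StabInput Vale.Agent.P251CM Vale.Agent.P251CZ Vale.Agent.P251CL
open Vale.Agent.P251.St (Space toLC toHom ofHom Pn fcPn fc_prod)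
open Vale.Agent.P241L (SM)

variable {M : Type 1} [Category.{0} M] [MonoidalCategory M] [SymmetricCategory M]
    [MonoidalClosed M] [HasZeroMorphisms M] [HasColimitsOfSize.{0, 0} M] [StabInput M]

namespace GenL

variable {T : SM} (D : GenL M T)

theorem mu_left {X X' : M} (f : X ⟶ X') (Y : M) :
    D.L.map f ▷ D.L.obj Y ≫ D.mu X' Y = D.mu X Y ≫ D.L.map (f ▷ Y) := by
  have := D.mu_nat f (𝟙 Y)
  rw [D.L.map_id, tensorHom_id, tensorHom_id] at this
  exact this.symm

theorem mu_right (X : M) {Y Y' : M} (g : Y ⟶ Y') :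
    D.L.obj X ◁ D.L.map g ≫ D.mu X Y' = D.mu X Y ≫ D.L.map (X ◁ g) := by
  have := D.mu_nat (𝟙 X) g
  rw [D.L.map_id, id_tensorHom, id_tensorHom] at this
  exact this.symm

theorem isIso_of_whiskerLeft {A B : T.Sp} (f : A ⟶ B) (h : ∀ X : M, IsIso (D.L.obj X ◁ f)) :
    IsIso f := by
  have := D.loc
  have := Localization.essSurj D.L (WW M)
  let e := D.L.objObjPreimageIso (𝟙_ T.Sp)
  have := h (D.L.objPreimage (𝟙_ T.Sp))
  have e1 : f = (λ_ A).inv ≫ e.inv ▷ A ≫ D.L.obj _ ◁ f ≫ e.hom ▷ B ≫ (λ_ B).hom := by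
    rw [whisker_exchange_assoc, ← comp_whiskerRight_assoc, e.inv_hom_id, id_whiskerRight,
      Category.id_comp, leftUnitor_naturality, Iso.inv_hom_id_assoc]
  rw [e1]
  infer_instance

/-- the unit of `J`, as an isomorphism onto `J` of the point -/
noncomputable def eJ : 𝟙_ M ≅ (J M).obj (toLC Pn) := Functor.Monoidal.εIso (J M)

/-- the unit -/
noncomputable def eps : 𝟙_ T.Sp ⟶ D.L.obj (𝟙_ M) := (T.su ≫ D.io Pn) ≫ D.L.map eJ.inv

theorem eps_eJ : D.eps ≫ D.L.map eJ.hom = T.su ≫ D.io Pn := by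
  rw [eps, Category.assoc, ← D.L.map_comp, Iso.inv_hom_id, D.L.map_id, Category.comp_id]

theorem eps_right (X : M) :
    D.L.obj X ◁ D.eps ≫ D.mu X (𝟙_ M) ≫ D.L.map (ρ_ X).hom = (ρ_ (D.L.obj X)).hom := by
  have h : D.L.obj X ◁ (T.su ≫ D.io Pn) ≫ D.mu X ((J M).obj (toLC Pn)) =
    (ρ_ _).hom ≫ D.L.map ((ρ_ X).inv ≫ X ◁ eJ.hom) := D.mu_unit X
  rw [eps, MonoidalCategory.whiskerLeft_comp, Category.assoc, reassoc_of% D.mu_right,
    reassoc_of% h, ← D.L.map_comp, ← D.L.map_comp, Category.assoc,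
    ← MonoidalCategory.whiskerLeft_comp_assoc, Iso.hom_inv_id, whiskerLeft_id, Category.id_comp,
    Iso.inv_hom_id, D.L.map_id, Category.comp_id]

theorem eps_left (X : M) :
    D.eps ▷ D.L.obj X ≫ D.mu (𝟙_ M) X ≫ D.L.map (λ_ X).hom = (λ_ (D.L.obj X)).hom := by
  rw [← cancel_epi (β_ (D.L.obj X) (𝟙_ T.Sp)).hom,
    ← BraidedCategory.braiding_naturality_right_assoc, ← reassoc_of% D.mu_comm, ← D.L.map_comp,
    braiding_leftUnitor, braiding_leftUnitor, eps_right]

instance isIso_eps : IsIso D.eps := D.isIso_of_whiskerLeft _ fun X => by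
  have := D.mu_iso X _ (𝟙_ (FlatCat (WW M))).property
  have h : IsIso (D.mu X (𝟙_ M)) := this
  have : IsIso (D.L.obj X ◁ D.eps ≫ D.mu X (𝟙_ M) ≫ D.L.map (ρ_ X).hom) := by
    rw [eps_right]
    infer_instance
  exact IsIso.of_isIso_comp_right _ (D.mu X (𝟙_ M) ≫ D.L.map (ρ_ X).hom)

include D in
theorem isIso_su : IsIso T.su := by
  have := D.io_iso fcPn
  have : IsIso (T.su ≫ D.io Pn) := by
    rw [← D.eps_eJ]
    infer_instance
  exact IsIso.of_isIso_comp_right _ (D.io Pn)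

/-- the localization functor on flat objects -/
def L0 : FlatCat (WW M) ⥤ T.Sp := (Flat (WW M)).ι ⋙ D.L

theorem L0_obj (X : FlatCat (WW M)) : D.L0.obj X = D.L.obj X.obj := rfl

theorem L0_map {X Y : FlatCat (WW M)} (f : X ⟶ Y) : D.L0.map f = D.L.map f.hom := rfl

instance : D.L0.IsLocalization (CofCat.W (C := FlatCat (WW M))) := by
  obtain ⟨Q, q, hQ, hq⟩ := P251CB.exists_flat_repl M
  have := D.loc
  exact isLocalization_comp (CofCat.W (C := FlatCat (WW M))) (WW M) (Flat (WW M)).ι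
    (liftQ (WW M) Q hQ) D.L (fun _ _ f hf => Localization.inverts D.L (WW M) _ hf)
    (fun _ _ f hf => Localization.inverts (CofCat.W (C := FlatCat (WW M))).Q
      (CofCat.W (C := FlatCat (WW M))) ((liftQ (WW M) Q hQ).map f) ((W_Q_map_iff (WW M) Q q hq f).2 hf))
    (flatIso (WW M) Q hQ q hq _)
    ((Functor.associator _ _ _).symm ≪≫ isoOfInverts D.L (liftq (WW M) Q hQ q)
      (fun X => Localization.inverts D.L (WW M) _ (hq X)) ≪≫ Functor.leftUnitor _)

/-- the monoidal structure -/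
noncomputable def core : D.L0.CoreMonoidal where
  εIso := @asIso _ _ _ _ D.eps D.isIso_eps
  μIso X Y := @asIso _ _ _ _ (D.mu X.obj Y.obj) (D.mu_iso _ _ Y.property)
  μIso_hom_natural_left f X := D.mu_left f.hom X.obj
  μIso_hom_natural_right X f := D.mu_right X.obj f.hom
  associativity X Y Z := D.mu_assoc X.obj Y.obj Z.obj
  left_unitality X := (D.eps_left X.obj).symm
  right_unitality X := (D.eps_right X.obj).symm

/-- **The localization of flat objects is braided for the tensor product of `T`.** -/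
noncomputable instance : D.L0.Braided where
  toMonoidal := D.core.toMonoidal
  braided X Y := D.mu_comm X.obj Y.obj

theorem L0_μ (X Y : FlatCat (WW M)) : μ D.L0 X Y = D.mu X.obj Y.obj := rfl

theorem L0_ε : ε D.L0 = D.eps := rfl

/-- the comparison of suspension spectra, in terms of `L0` -/
noncomputable def ioI {K : Space} (h : St.FC K) : T.sus K ≅ D.L0.obj (flJ h) :=
  @asIso _ _ _ _ (D.io K) (D.io_iso h)

theorem sm_ioI {X Y : Space} (hX : St.FC X) (hY : St.FC Y) (f : St.Map X Y) :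
    T.sm f ≫ (D.ioI hY).hom = (D.ioI hX).hom ≫ D.L0.map (flMap hX hY f) := D.io_nat f hX hY

theorem sx_ioI {X Y : Space} (hX : St.FC X) (hY : St.FC Y) :
    T.sx X Y ≫ (D.ioI (fc_prod hX hY)).hom =
      ((D.ioI hX).hom ⊗ₘ (D.ioI hY).hom) ≫ μ D.L0 (flJ hX) (flJ hY) ≫ D.L0.map (flMul hX hY) :=
  D.io_mul hX hY

theorem su_ioI : T.su ≫ (D.ioI fcPn).hom = ε D.L0 ≫ D.L0.map flUnit := D.eps_eJ.symm

end GenL

end Vale.Agent.P241CG
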